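import Vale.Agent.P039.Bar.Props
import Mathlib.Tactic

/-! Block L3 of P039-B in the frozen form: `P_CYCW` from `P_U`, `P_SIDE`, `P_E1`, `P_E2`. -/

namespace Vale.Agent.P039.Bar.H202

open Vale.Agent.P039.Sk Vale.Agent.P039.Bar Finset

variable {B W V : Type} {X : Web B W}

theorem cF_some {L : Lab X V} {b0 : B} {b : {b // b ≠ b0}} {c : Fin 3}
    {v : {v // ∀ c', v ≠ L.c c' b0}} (h : cF L b0 b c = some v) : L.c c b.1 = v.1 := by
  unfold cF at h
  split_ifs at h
  have h1 := Option.some.inj h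
  rw [← h1]

/-- Stokes -/
theorem stokes [Fintype B] [Fintype W] (X : Web B W) (u : B → Fin 3 → ℝ) (n : W → ℝ) :
    ∑ b, ∑ c, u b c * (n (X.e (c + 1) b) - n (X.e (c + 2) b)) =
      ∑ w, n w * ∑ i, (u ((X.e i).symm w) (i + 2) - u ((X.e i).symm w) (i + 1)) := by
  have h1 : ∑ w, n w * ∑ i, (u ((X.e i).symm w) (i + 2) - u ((X.e i).symm w) (i + 1)) =
      ∑ i : Fin 3, ∑ w, (n w * u ((X.e i).symm w) (i + 2) - n w * u ((X.e i).symm w) (i + 1)) := by
    rw [Finset.sum_comm]
    refine Finset.sum_congr rfl fun w _ => ?_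
    rw [Finset.mul_sum]
    exact Finset.sum_congr rfl fun i _ => mul_sub _ _ _
  have h2 : ∀ i : Fin 3,
      ∑ w, (n w * u ((X.e i).symm w) (i + 2) - n w * u ((X.e i).symm w) (i + 1)) =
      ∑ b, (n (X.e i b) * u b (i + 2) - n (X.e i b) * u b (i + 1)) := by
    intro i
    rw [← (X.e i).sum_comp]
    simp only [Equiv.symm_apply_apply]
  rw [h1, Finset.sum_congr rfl fun i _ => h2 i,
    Finset.sum_comm (f := fun (i : Fin 3) (b : B) =>
      n (X.e i b) * u b (i + 2) - n (X.e i b) * u b (i + 1))]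
  refine Finset.sum_congr rfl fun b _ => ?_
  rw [Fin.sum_univ_three, Fin.sum_univ_three]
  have e1 : (0 : Fin 3) + 1 = 1 := rfl
  have e2 : (0 : Fin 3) + 2 = 2 := rfl
  have e3 : (1 : Fin 3) + 1 = 2 := rfl
  have e4 : (1 : Fin 3) + 2 = 0 := rfl
  have e5 : (2 : Fin 3) + 1 = 0 := rfl
  have e6 : (2 : Fin 3) + 2 = 1 := rfl
  simp only [e1, e2, e3, e4, e5, e6]
  ring

theorem ind_mem {I : Finset W} {w : W} (h : w ∈ I) : ind I w = 1 := by
  unfold ind; rw [if_pos h]

theorem ind_not {I : Finset W} {w : W} (h : w ∉ I) : ind I w = 0 := by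
  unfold ind; rw [if_neg h]

theorem ind_eq_of_iff {I : Finset W} {w w' : W} (h : w ∈ I ↔ w' ∈ I) : ind I w = ind I w' := by
  by_cases hw : w ∈ I
  · rw [ind_mem hw, ind_mem (h.1 hw)]
  · rw [ind_not hw, ind_not (fun h' => hw (h.2 h'))]

/-- the local pairing at a black vertex -/
theorem local_pair {f g : B → Fin 3} {C : Finset B} {I : Finset W} {s : ℤ}
    (hS : Side X f g C I s) (hne : ∀ b ∈ C, f b ≠ g b) (u : B → Fin 3 → ℝ) (b : B) :
    ∑ c, u b c * ((ind I (X.e (c + 1) b) : ℝ) - (ind I (X.e (c + 2) b) : ℝ)) =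
      open Classical in if b ∈ C then (s : ℝ) * (u b (f b) - u b (g b)) else 0 := by
  classical
  by_cases hb : b ∈ C
  · have ho : ((ind I (X.e (f b + 1) b) : ℝ) - (ind I (X.e (f b + 2) b) : ℝ)) = s := by
      exact_mod_cast hS.out b hb
    have hi : ((ind I (X.e (g b + 1) b) : ℝ) - (ind I (X.e (g b + 2) b) : ℝ)) = -s := by
      exact_mod_cast hS.inn b hb
    have hoth : ∀ c, c ≠ f b → c ≠ g b →
        ((ind I (X.e (c + 1) b) : ℝ) - (ind I (X.e (c + 2) b) : ℝ)) = 0 := by
      intro c h1 h2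
      rw [ind_eq_of_iff (hS.oth b c fun _ => ⟨h1, h2⟩), sub_self]
    have key : ∀ c, u b c * ((ind I (X.e (c + 1) b) : ℝ) - (ind I (X.e (c + 2) b) : ℝ)) =
        (if c = f b then (s : ℝ) * u b (f b) else 0) - (if c = g b then (s : ℝ) * u b (g b) else 0)
        := by
      intro c
      by_cases h1 : c = f b
      · subst h1
        rw [if_pos rfl, if_neg (hne b hb), ho]; ring
      · by_cases h2 : c = g b
        · subst h2
          rw [if_neg h1, if_pos rfl, hi]; ring
        · rw [if_neg h1, if_neg h2, hoth c h1 h2]; ring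
    rw [Finset.sum_congr rfl fun c _ => key c, Finset.sum_sub_distrib, Finset.sum_ite_eq',
      Finset.sum_ite_eq', if_pos (Finset.mem_univ _), if_pos (Finset.mem_univ _), if_pos hb]
    ring
  · rw [if_neg hb]
    refine Finset.sum_eq_zero fun c _ => ?_
    rw [ind_eq_of_iff (hS.oth b c fun h => absurd h hb), sub_self, mul_zero]

/-- the flux through the curve -/
theorem flux [Fintype B] [Fintype W] {f g : B → Fin 3} {C : Finset B} {I : Finset W} {s : ℤ}
    (hS : Side X f g C I s) (hne : ∀ b ∈ C, f b ≠ g b) (u : B → Fin 3 → ℝ)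
    (hu : ∀ w ∈ I, ∑ i, (u ((X.e i).symm w) (i + 2) - u ((X.e i).symm w) (i + 1)) = -1) :
    (s : ℝ) * ∑ b ∈ C, (u b (f b) - u b (g b)) = -(I.card : ℝ) := by
  classical
  have h1 := stokes X u (fun w => (ind I w : ℝ))
  have h2 : ∑ b, ∑ c, u b c * ((ind I (X.e (c + 1) b) : ℝ) - (ind I (X.e (c + 2) b) : ℝ)) =
      (s : ℝ) * ∑ b ∈ C, (u b (f b) - u b (g b)) := by
    rw [Finset.sum_congr rfl fun b _ => local_pair hS hne u b, Finset.sum_ite_mem,
      Finset.univ_inter, Finset.mul_sum]
  have h3 : ∑ w, (ind I w : ℝ) *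
      ∑ i, (u ((X.e i).symm w) (i + 2) - u ((X.e i).symm w) (i + 1)) = -(I.card : ℝ) := by
    have : ∀ w, (ind I w : ℝ) *
        ∑ i, (u ((X.e i).symm w) (i + 2) - u ((X.e i).symm w) (i + 1)) =
        if w ∈ I then (-1 : ℝ) else 0 := by
      intro w
      by_cases hw : w ∈ I
      · rw [ind_mem hw, hu w hw, if_pos hw]; norm_num
      · rw [ind_not hw, if_neg hw]; norm_num
    rw [Finset.sum_congr rfl fun w _ => this w, Finset.sum_ite_mem, Finset.univ_inter,
      Finset.sum_const]
    simp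
  rw [← h2, ← h3]
  exact h1

/-- the sign at a black vertex of the curve -/
theorem eps_loc {f g : B → Fin 3} {C : Finset B} {I : Finset W} {s : ℤ}
    (hS : Side X f g C I s) (b : B) (hb : b ∈ C) (hne : f b ≠ g b) :
    open Classical in eps (g b - f b) = if b ∈ in3 X f g C I then s else -s := by
  classical
  have ho := hS.out b hb
  have hi := hS.inn b hb
  have hoth := hS.oth b
  rcases fcase (g b) (f b) with h | h | h
  · exact absurd h.symm hne
  · -- g = f + 1, third = f + 2
    have hd : g b - f b = 1 := by rw [h]; simp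
    have h3 : X.e (f b) b ∈ I ↔ X.e (f b + 1) b ∈ I := by
      have := hoth (f b + 2) fun _ => ⟨fne2 _, by rw [h]; exact fne21 _⟩
      rwa [f21, f22] at this
    have hin : b ∈ in3 X f g C I ↔ X.e (f b + 1) b ∈ I := by
      constructor
      · intro hh
        have := (hh.2 (f b + 2) (fne2 _) (by rw [h]; exact fne21 _)).2
        rwa [f22] at this
      · intro hh
        refine ⟨hb, fun c hc1 hc2 => ?_⟩
        have hc : c = f b + 2 := by
          rcases fcase c (f b) with h' | h' | h'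
          · exact absurd h' hc1
          · exact absurd (h'.trans h.symm) hc2
          · exact h'
        subst hc
        rw [f21, f22]
        exact ⟨h3.2 hh, hh⟩
    rw [hd]
    have he : eps 1 = 1 := by unfold eps; simp
    rw [he]
    rcases hS.sgn with hs | hs
    · subst hs
      have : X.e (f b + 1) b ∈ I := by
        by_contra hh
        rw [ind_not hh] at ho
        have := ind_mem (I := I) (w := X.e (f b + 2) b)
        by_cases h2 : X.e (f b + 2) b ∈ I
        · rw [this h2] at ho; omega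
        · rw [ind_not h2] at ho; omega
      rw [if_pos (hin.2 this)]
    · subst hs
      have : X.e (f b + 1) b ∉ I := by
        intro hh
        rw [ind_mem hh] at ho
        by_cases h2 : X.e (f b + 2) b ∈ I
        · rw [ind_mem h2] at ho; omega
        · rw [ind_not h2] at ho; omega
      rw [if_neg fun hh => this (hin.1 hh)]; ring
  · -- g = f + 2, third = f + 1
    have hd : g b - f b = 2 := by rw [h]; simp
    have h3 : X.e (f b + 2) b ∈ I ↔ X.e (f b) b ∈ I := by
      have := hoth (f b + 1) fun _ => ⟨fne1 _, by rw [h]; exact fne12 _⟩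
      rwa [f11, f12] at this
    have hin : b ∈ in3 X f g C I ↔ X.e (f b + 2) b ∈ I := by
      constructor
      · intro hh
        have := (hh.2 (f b + 1) (fne1 _) (by rw [h]; exact fne12 _)).1
        rwa [f11] at this
      · intro hh
        refine ⟨hb, fun c hc1 hc2 => ?_⟩
        have hc : c = f b + 1 := by
          rcases fcase c (f b) with h' | h' | h'
          · exact absurd h' hc1
          · exact h'
          · exact absurd (h'.trans h.symm) hc2
        subst hc
        rw [f11, f12]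
        exact ⟨hh, h3.1 hh⟩
    rw [hd]
    have he : eps 2 = -1 := by unfold eps; simp
    rw [he]
    rcases hS.sgn with hs | hs
    · subst hs
      have : X.e (f b + 2) b ∉ I := by
        intro hh
        rw [ind_mem hh] at ho
        by_cases h2 : X.e (f b + 1) b ∈ I
        · rw [ind_mem h2] at ho; omega
        · rw [ind_not h2] at ho; omega
      rw [if_neg fun hh => this (hin.1 hh)]
    · subst hs
      have : X.e (f b + 2) b ∈ I := by
        by_contra hh
        rw [ind_not hh] at ho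
        by_cases h2 : X.e (f b + 1) b ∈ I
        · rw [ind_mem h2] at ho; omega
        · rw [ind_not h2] at ho; omega
      rw [if_pos (hin.2 this)]

theorem in3_sub {f g : B → Fin 3} {C : Finset B} {I : Finset W} : in3 X f g C I ⊆ (C : Set B) :=
  fun _ h => h.1

/-- the product of the signs, with the number of third corners inside -/
theorem prod_eps {f g : B → Fin 3} {C : Finset B} {I : Finset W} {s : ℤ}
    (hS : Side X f g C I s) (hne : ∀ b ∈ C, f b ≠ g b)
    (hk : C.card = 3 + 2 * (in3 X f g C I).ncard) :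
    ∏ b ∈ C, eps (g b - f b) = -s * (-1) ^ ((C.card + 1) / 2) := by
  classical
  set t := (in3 X f g C I).ncard with ht
  have h1 : ∏ b ∈ C, eps (g b - f b) = ∏ b ∈ C, if b ∈ in3 X f g C I then s else -s :=
    Finset.prod_congr rfl fun b hb => eps_loc hS b hb (hne b hb)
  rw [h1, Finset.prod_ite, Finset.prod_const, Finset.prod_const]
  have hc1 : (C.filter fun b => b ∈ in3 X f g C I).card = t := by
    rw [ht, ← Set.ncard_coe_finset]
    congr 1
    ext b
    rw [Finset.mem_coe, Finset.mem_filter]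
    exact ⟨fun h => h.2, fun h => ⟨h.1, h⟩⟩
  have hc2 : (C.filter fun b => b ∉ in3 X f g C I).card = 3 + t := by
    have := Finset.card_filter_add_card_filter_not (s := C) (fun b => b ∈ in3 X f g C I)
    omega
  rw [hc1, hc2]
  have h2 : (C.card + 1) / 2 = t + 2 := by omega
  rw [h2]
  have hss : s * s = 1 := by rcases hS.sgn with h | h <;> rw [h] <;> norm_num
  have hst : s ^ t * (-s) ^ (3 + t) = (-s) ^ 3 * (s * (-s)) ^ t := by
    rw [mul_pow, pow_add]; ring
  have h3 : s * -s = -1 := by rw [mul_neg, hss]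
  have h4 : (-s) ^ 3 = -s := by
    have : (-s) ^ 3 = -s * (s * s) := by ring
    rw [this, hss, mul_one]
  rw [hst, h3, h4, pow_add]
  norm_num


/-! ### the curve of two disjoint matchings -/

section Two

variable [Fintype B] [Fintype W] [Fintype V] {L : Lab X V} {b0 : B}

/-- extension of a choice of colours to `b0` -/
noncomputable def ext (b0 : B) (f : {b // b ≠ b0} → Fin 3) (a : Fin 3) (b : B) : Fin 3 :=
  open Classical in if h : b ≠ b0 then f ⟨b, h⟩ else a

omit [Fintype B] [Fintype W] [Fintype V] in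
theorem ext_coe (f : {b // b ≠ b0} → Fin 3) (a : Fin 3) (b : {b // b ≠ b0}) :
    ext b0 f a b.1 = f b := by
  unfold ext
  rw [dif_pos b.2]

omit [Fintype B] [Fintype W] [Fintype V] in
theorem mem_orb {α : Type} [Fintype α] (τ : Equiv.Perm α) (b b' : α) :
    b' ∈ orb τ b ↔ τ.SameCycle b b' := by
  unfold orb
  simp

omit [Fintype B] [Fintype W] [Fintype V] in
open Classical in
theorem jcyc [Fintype {b : B // b ≠ b0}] {f g : {b // b ≠ b0} → Fin 3}
    {e e' : {b // b ≠ b0} ≃ {v // ∀ c, v ≠ L.c c b0}}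
    (hf : IsMat (cF L b0) f e) (hg : IsMat (cF L b0) g e') (hd : Disj f g)
    (b1 : {b // b ≠ b0}) :
    JCyc L (ext b0 f 0) (ext b0 g 1) (Equiv.Perm.ofSubtype (e.trans e'.symm))
      ((orb (e.trans e'.symm) b1).map (Function.Embedding.subtype _)) := by
  have hmem : ∀ b : B, b ∈ (orb (e.trans e'.symm) b1).map (Function.Embedding.subtype _) ↔
      ∃ b' : {b // b ≠ b0}, Equiv.Perm.SameCycle (e.trans e'.symm) b1 b' ∧ b'.1 = b := by
    intro b
    rw [Finset.mem_map]
    constructor
    · rintro ⟨b', hb', rfl⟩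
      exact ⟨b', (mem_orb _ _ _).1 hb', rfl⟩
    · rintro ⟨b', hb', rfl⟩
      exact ⟨b', (mem_orb _ _ _).2 hb', rfl⟩
  have hσ : ∀ b : {b // b ≠ b0}, (Equiv.Perm.ofSubtype (e.trans e'.symm)) b.1 =
      ((e.trans e'.symm) b).1 := fun b => Equiv.Perm.ofSubtype_apply_coe _ _
  have hσz : ∀ (k : ℤ) (b : {b // b ≠ b0}),
      ((Equiv.Perm.ofSubtype (e.trans e'.symm)) ^ k) b.1 = (((e.trans e'.symm) ^ k) b).1 := by
    intro k b
    rw [← map_zpow]
    exact Equiv.Perm.ofSubtype_apply_coe _ _
  have hfe : ∀ b : {b // b ≠ b0}, L.c (ext b0 f 0 b.1) b.1 = (e b).1 := by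
    intro b
    rw [ext_coe]
    exact cF_some (hf b)
  have hge : ∀ b : {b // b ≠ b0}, L.c (ext b0 g 1 b.1) b.1 = (e' b).1 := by
    intro b
    rw [ext_coe]
    exact cF_some (hg b)
  refine ⟨?_, ?_, ?_, ?_, ?_⟩
  · intro b hb
    obtain ⟨b', -, rfl⟩ := (hmem b).1 hb
    rw [ext_coe, ext_coe]
    exact hd b'
  · intro b hb
    obtain ⟨b', -, rfl⟩ := (hmem b).1 hb
    rw [hσ, hge, hfe]
    simp
  · intro b hb b''
    obtain ⟨b', hb', rfl⟩ := (hmem b).1 hb
    rw [hmem]
    constructor
    · rintro ⟨k, hk⟩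
      rw [hσz] at hk
      exact ⟨_, hb'.trans ⟨k, rfl⟩, hk⟩
    · rintro ⟨b3, hb3, rfl⟩
      obtain ⟨k, hk⟩ := hb'.symm.trans hb3
      refine ⟨k, ?_⟩
      rw [hσz, hk]
  · intro b hb b'' hb'' h
    obtain ⟨b', -, rfl⟩ := (hmem b).1 hb
    obtain ⟨b3, -, rfl⟩ := (hmem b'').1 hb''
    rw [hfe, hfe] at h
    exact congrArg Subtype.val (e.injective (Subtype.ext h))
  · exact ⟨b1.1, (hmem _).2 ⟨b1, Equiv.Perm.SameCycle.refl _ _, rfl⟩⟩

omit [Fintype B] [Fintype W] [Fintype V] in
/-- the faces strictly inside are matched with the black vertices strictly inside -/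
theorem inB_inV {f g : B → Fin 3} {σ : Equiv.Perm B} {C : Finset B} (hJ : JCyc L f g σ C)
    {I : Finset W} {s : ℤ} (hS : Side X f g C I s) (hb0 : b0 ∉ C) (h0 : X.e 0 b0 ∉ I)
    (e : {b // b ≠ b0} ≃ {v // ∀ c, v ≠ L.c c b0})
    (he : ∀ b : {b // b ≠ b0}, L.c (f b.1) b.1 = (e b).1) :
    (inB X C I).ncard = (inV L f C I).ncard := by
  classical
  -- the faces of the curve are also reached by `g`
  have hgC : ∀ y ∈ C, ∃ y' ∈ C, L.c (f y') y' = L.c (g y) y := by
    intro y hy
    refine ⟨σ.symm y, ?_, ?_⟩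
    · refine (hJ.cyc y hy _).1 ?_
      exact ⟨-1, by simp [zpow_neg]⟩
    · have hm : σ.symm y ∈ C := (hJ.cyc y hy _).1 ⟨-1, by simp [zpow_neg]⟩
      have := hJ.step (σ.symm y) hm
      rw [Equiv.apply_symm_apply] at this
      exact this.symm
  -- propagation around a face off the curve
  have hface : ∀ v : V, (∀ b ∈ C, L.c (f b) b ≠ v) → ∀ (j : Fin 3) (x y : B),
      Relation.EqvGen (fun x y => X.e (j + 1) y = X.e (j + 2) x) x y → L.c j x = v →
      (L.c j y = v ∧ (X.e (j + 1) x ∈ I ↔ X.e (j + 1) y ∈ I)) := by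
    intro v hv j x y hxy
    have hoth : ∀ y, L.c j y = v → (X.e (j + 1) y ∈ I ↔ X.e (j + 2) y ∈ I) := by
      intro y hy
      refine hS.oth y j fun hyC => ⟨fun h => ?_, fun h => ?_⟩
      · exact hv y hyC (by rw [← h, hy])
      · obtain ⟨y', hy', h'⟩ := hgC y hyC
        exact hv y' hy' (by rw [h', ← h, hy])
    have hst : ∀ x y, X.e (j + 1) y = X.e (j + 2) x → L.c j y = L.c j x :=
      fun x y h => L.step j x y h
    induction hxy with
    | rel x y h =>
      intro hx
      have hy := hst x y h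
      refine ⟨hy.trans hx, ?_⟩
      rw [h]
      exact hoth x hx
    | refl x => intro hx; exact ⟨hx, Iff.rfl⟩
    | symm x y hxy ih =>
      intro hy
      have hxc : L.c j x = v := by
        have : ∀ a b, Relation.EqvGen (fun x y => X.e (j + 1) y = X.e (j + 2) x) a b →
            L.c j a = L.c j b := by
          intro a b hab
          induction hab with
          | rel a b h => exact (hst a b h).symm
          | refl a => rfl
          | symm a b _ ih => exact ih.symm
          | trans a b c _ _ ih1 ih2 => exact ih1.trans ih2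
        rw [this x y hxy, hy]
      exact ⟨hxc, (ih hxc).2.symm⟩
    | trans x y z _ _ ih1 ih2 =>
      intro hx
      obtain ⟨h1, h2⟩ := ih1 hx
      obtain ⟨h3, h4⟩ := ih2 h1
      exact ⟨h3, h2.trans h4⟩
  have hoff : ∀ b, b ∉ C → ∀ i j, X.e i b ∈ I ↔ X.e j b ∈ I := by
    intro b hb
    have h1 := hS.oth b 0 fun h => absurd h hb
    have h2 := hS.oth b 1 fun h => absurd h hb
    have h3 := hS.oth b 2 fun h => absurd h hb
    have e1 : (0 : Fin 3) + 1 = 1 := rfl
    have e2 : (0 : Fin 3) + 2 = 2 := rfl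
    have e3 : (1 : Fin 3) + 1 = 2 := rfl
    have e4 : (1 : Fin 3) + 2 = 0 := rfl
    have e5 : (2 : Fin 3) + 1 = 0 := rfl
    have e6 : (2 : Fin 3) + 2 = 1 := rfl
    rw [e1, e2] at h1
    rw [e3, e4] at h2
    rw [e5, e6] at h3
    intro i j
    fin_cases i <;> fin_cases j <;> simp <;> tauto
  have him : (fun b => L.c (f b) b) '' inB X C I = inV L f C I := by
    ext v
    constructor
    · rintro ⟨b, ⟨hbC, hbI⟩, rfl⟩
      have hb : b ≠ b0 := by
        rintro rfl
        exact h0 (hbI 0)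
      have hv : ∀ b' ∈ C, L.c (f b') b' ≠ L.c (f b) b := by
        intro b' hb' h
        have hb'0 : b' ≠ b0 := by
          rintro rfl
          exact hb0 hb'
        rw [he ⟨b', hb'0⟩, he ⟨b, hb⟩] at h
        have h2 : b' = b := congrArg Subtype.val (e.injective (Subtype.ext h))
        exact hbC (h2 ▸ hb')
      refine ⟨hv, ?_⟩
      intro b' c hc
      have hcf : f b = c := L.cls _ _ _ _ hc.symm
      subst hcf
      obtain ⟨-, h2⟩ := hface _ hv (f b) b b' (L.exact _ _ _ hc.symm) rfl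
      have h3 : X.e (f b + 1) b' ∈ I := h2.1 (hbI _)
      refine ⟨h3, ?_⟩
      refine (hS.oth b' (f b) fun hyC => ⟨fun h => ?_, fun h => ?_⟩).1 h3
      · exact hv b' hyC (by rw [← h, hc])
      · obtain ⟨y', hy', h'⟩ := hgC b' hyC
        exact hv y' hy' (by rw [h', ← h, hc])
    · rintro ⟨hv, hvI⟩
      have hv0 : ∀ c, v ≠ L.c c b0 := by
        intro c h
        have h1 := (hvI b0 c h.symm).1
        exact h0 ((hoff b0 hb0 _ _).1 h1)
      have hb := he (e.symm ⟨v, hv0⟩)
      rw [Equiv.apply_symm_apply] at hb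
      set b := (e.symm ⟨v, hv0⟩).1 with hbdef
      have hb' : L.c (f b) b = v := hb
      have hbC : b ∉ C := fun h => hv b h hb'
      refine ⟨b, ⟨hbC, fun i => ?_⟩, hb'⟩
      exact (hoff b hbC _ _).1 (hvI b (f b) hb').1
  have hinj : Set.InjOn (fun b => L.c (f b) b) (inB X C I) := by
    rintro b ⟨hbC, hbI⟩ b' ⟨hbC', hbI'⟩ h
    have hb : b ≠ b0 := by
      rintro rfl
      exact h0 (hbI 0)
    have hb' : b' ≠ b0 := by
      rintro rfl
      exact h0 (hbI' 0)
    have h' : L.c (f b) b = L.c (f b') b' := h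
    rw [he ⟨b, hb⟩, he ⟨b', hb'⟩] at h'
    exact congrArg Subtype.val (e.injective (Subtype.ext h'))
  rw [← him, hinj.ncard_image]

end Two

/-- L3: the planar input of Steps 3 and 4. -/
theorem cycw (hU : P_U) (hSide : P_SIDE) (hE1 : P_E1) (hE2 : P_E2) : P_CYCW := by
  classical
  intro B W V _ _ _ X L hWC hcard b0 _
  -- the potential
  obtain ⟨u, hu⟩ := hU X hWC (fun w => (if w = X.e 0 b0 then (Fintype.card W : ℝ) else 0) - 1) (by
    rw [Finset.sum_sub_distrib, Finset.sum_ite_eq', if_pos (Finset.mem_univ _)]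
    simp)
  refine ⟨fun b c => u b.1 c, ?_⟩
  intro f g e e' hf hg hd b1
  have hJ := jcyc hf hg hd b1
  set τ : Equiv.Perm {b // b ≠ b0} := e.trans e'.symm with hτ
  set C : Finset B := (orb τ b1).map (Function.Embedding.subtype _) with hC
  obtain ⟨I, s, hS, hw0⟩ := hSide X L hWC hcard _ _ _ _ hJ (X.e 0 b0)
  have hE1' := hE1 X L _ _ _ _ hJ I s hS
  have hE2' := hE2 X L hWC hcard _ _ _ _ hJ I s hS
  have hCcard : C.card = (orb τ b1).card := by rw [hC, Finset.card_map]
  have hb0 : b0 ∉ C := by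
    rw [hC, Finset.mem_map]
    rintro ⟨b, -, hb⟩
    exact b.2 hb
  have hBV := inB_inV hJ hS hb0 hw0 e (by
    intro b
    rw [ext_coe]
    exact cF_some (hf b))
  have hk : C.card = 3 + 2 * (in3 X (ext b0 f 0) (ext b0 g 1) C I).ncard := by omega
  have hIpos : 0 < I.card := by omega
  have hprod := prod_eps hS hJ.ne hk
  have hflux := flux hS hJ.ne u (by
    intro w hw
    rw [hu w, if_neg, zero_sub]
    rintro rfl
    exact hw0 hw)
  have hsum : ∑ b ∈ C, (u b (ext b0 f 0 b) - u b (ext b0 g 1 b)) =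
      ∑ b ∈ orb τ b1, (u b.1 (f b) - u b.1 (g b)) := by
    rw [hC, Finset.sum_map]
    refine Finset.sum_congr rfl fun b _ => ?_
    simp only [Function.Embedding.subtype_apply]
    rw [ext_coe, ext_coe]
  have hprod' : ∏ b ∈ C, eps (ext b0 g 1 b - ext b0 f 0 b) =
      ∏ b ∈ orb τ b1, eps (g b - f b) := by
    rw [hC, Finset.prod_map]
    refine Finset.prod_congr rfl fun b _ => ?_
    simp only [Function.Embedding.subtype_apply]
    rw [ext_coe, ext_coe]
  refine ⟨?_, -s, ?_, ?_, ?_⟩
  · rw [← hCcard, hk]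
    exact ⟨1 + (in3 X (ext b0 f 0) (ext b0 g 1) C I).ncard, by ring⟩
  · rcases hS.sgn with h | h
    · right; rw [h]
    · left; rw [h]; norm_num
  · have h1 : ((-s : ℤ) : ℝ) * ∑ b ∈ orb τ b1, (u b.1 (f b) - u b.1 (g b)) = (I.card : ℝ) := by
      rw [← hsum]
      push_cast
      linarith
    rw [h1]
    exact_mod_cast hIpos
  · rw [← hprod', hprod, hCcard]

end Vale.Agent.P039.Bar.H202
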